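import Mathlib

set_option autoImplicit false

/-!
# P235, XC, row X6: many blocks without conflicts
-/

namespace Vale.Agent.P235.XC.H761

open Finset

/-- in every set of vertices of a digraph of out-degree at most `k` there is a vertex with at most
`k` in-neighbours -/
theorem exists_low {V : Type*} [DecidableEq V] (c : V → Finset V) (k : ℕ)
    (hc : ∀ i, (c i).card ≤ k) (A : Finset V) (hA : A.Nonempty) :
    ∃ i ∈ A, (A.filter fun j => i ∈ c j).card ≤ k := by
  classical
  by_contra h
  push Not at h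
  have h1 : ∑ i ∈ A, (A.filter fun j => i ∈ c j).card = ∑ j ∈ A, (A.filter fun i => i ∈ c j).card :=
    Finset.sum_card_bipartiteAbove_eq_sum_card_bipartiteBelow (fun i j => i ∈ c j)
  have h2 : ∑ j ∈ A, (A.filter fun i => i ∈ c j).card ≤ ∑ _j ∈ A, k := by
    refine Finset.sum_le_sum fun j _ => ?_
    refine (Finset.card_le_card ?_).trans (hc j)
    intro i hi
    exact (mem_filter.1 hi).2
  have h3 : ∑ _j ∈ A, k < ∑ i ∈ A, (A.filter fun j => i ∈ c j).card :=
    Finset.sum_lt_sum_of_nonempty hA fun i hi => h i hi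
  omega

/-- **independent sets in digraphs of small out-degree** -/
theorem indep {V : Type*} [DecidableEq V] (c : V → Finset V) (k : ℕ)
    (hc : ∀ i, (c i).card ≤ k) : ∀ (r : ℕ) (A : Finset V), (2 * k + 1) * r ≤ A.card + 2 * k →
    ∃ I : Finset V, I ⊆ A ∧ I.card = r ∧ ∀ i ∈ I, ∀ j ∈ I, i ≠ j → j ∉ c i := by
  classical
  intro r
  induction r with
  | zero => exact fun A _ => ⟨∅, empty_subset _, card_empty, fun i hi => absurd hi (notMem_empty i)⟩
  | succ r ih =>
    intro A hA
    have hne : A.Nonempty := by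
      rw [← Finset.card_pos]
      have : (2 * k + 1) * (r + 1) = (2 * k + 1) * r + (2 * k + 1) := by ring
      omega
    obtain ⟨i, hi, hlow⟩ := exists_low c k hc A hne
    set A' := ((A.erase i) \ c i).filter fun j => i ∉ c j with hA'
    have h1 : A.card ≤ A'.card + (2 * k + 1) := by
      have h2 : A ⊆ A' ∪ ({i} ∪ (c i ∪ A.filter fun j => i ∈ c j)) := by
        intro j hj
        simp only [hA', mem_union, mem_filter, mem_sdiff, mem_erase, mem_singleton]
        by_cases e1 : j = i
        · exact Or.inr (Or.inl e1)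
        · by_cases e2 : j ∈ c i
          · exact Or.inr (Or.inr (Or.inl e2))
          · by_cases e3 : i ∈ c j
            · exact Or.inr (Or.inr (Or.inr ⟨hj, e3⟩))
            · exact Or.inl ⟨⟨⟨e1, hj⟩, e2⟩, e3⟩
      have h3 := Finset.card_le_card h2
      have h4 := Finset.card_union_le A' ({i} ∪ (c i ∪ A.filter fun j => i ∈ c j))
      have h5 := Finset.card_union_le {i} (c i ∪ A.filter fun j => i ∈ c j)
      have h6 := Finset.card_union_le (c i) (A.filter fun j => i ∈ c j)
      have h7 := hc i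
      rw [card_singleton] at h5
      omega
    obtain ⟨I, hI1, hI2, hI3⟩ := ih A' (by
      have : (2 * k + 1) * (r + 1) = (2 * k + 1) * r + (2 * k + 1) := by ring
      omega)
    have hmem : ∀ j ∈ I, j ≠ i ∧ j ∈ A ∧ j ∉ c i ∧ i ∉ c j := by
      intro j hj
      have h2 := hI1 hj
      simp only [hA', mem_filter, mem_sdiff, mem_erase] at h2
      exact ⟨h2.1.1.1, h2.1.1.2, h2.1.2, h2.2⟩
    have hiI : i ∉ I := fun h => (hmem i h).1 rfl
    refine ⟨insert i I, ?_, ?_, ?_⟩
    · intro j hj
      rcases mem_insert.1 hj with rfl | hj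
      · exact hi
      · exact (hmem j hj).2.1
    · rw [card_insert_of_notMem hiI, hI2]
    · intro x hx y hy hxy
      rcases mem_insert.1 hx with h5 | h5
      · rcases mem_insert.1 hy with h6 | h6
        · exact absurd (h5.trans h6.symm) hxy
        · rw [h5]
          exact (hmem y h6).2.2.1
      · rcases mem_insert.1 hy with h6 | h6
        · rw [h6]
          exact (hmem x h5).2.2.2
        · exact hI3 x h5 y h6 hxy

/-- **[X6]** 8 of 50 blocks -/
theorem pick {n : ℕ} (c : Fin n → Finset (Fin n)) (hc : ∀ i, (c i).card ≤ 3) (hn : 50 ≤ n) :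
    ∃ I : Finset (Fin n), I.card = 8 ∧ ∀ i ∈ I, ∀ j ∈ I, i ≠ j → j ∉ c i := by
  obtain ⟨I, -, h1, h2⟩ := indep c 3 hc 8 univ (by
    rw [card_univ, Fintype.card_fin]
    omega)
  exact ⟨I, h1, h2⟩

/-- **[X6]** in the letters of sets: `B i` pairwise disjoint, `S i` at most three vertices -/
theorem pick_sets {V : Type*} {n : ℕ} (B : Fin n → Set V) (S : Fin n → Finset V)
    (hB : ∀ i j, i ≠ j → Disjoint (B i) (B j)) (hS : ∀ i, (S i).card ≤ 3) (hn : 50 ≤ n) :
    ∃ I : Finset (Fin n), I.card = 8 ∧ ∀ i ∈ I, ∀ j ∈ I, i ≠ j → Disjoint (↑(S i) : Set V) (B j) := by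
  classical
  obtain ⟨I, h1, h2⟩ := pick (fun i => univ.filter fun j => ¬ Disjoint (↑(S i) : Set V) (B j))
    (fun i => by
      let f : V → Fin n := fun v => if h : ∃ j, v ∈ B j then h.choose else i
      have h3 : (univ.filter fun j => ¬ Disjoint (↑(S i) : Set V) (B j)) ⊆ (S i).image f := by
        intro j hj
        have h4 := (mem_filter.1 hj).2
        rw [Set.not_disjoint_iff] at h4
        obtain ⟨v, hv1, hv2⟩ := h4
        refine mem_image.2 ⟨v, hv1, ?_⟩
        have h5 : ∃ j, v ∈ B j := ⟨j, hv2⟩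
        have h6 : f v = h5.choose := dif_pos h5
        rw [h6]
        by_contra hne
        exact Set.disjoint_left.1 (hB _ _ hne) h5.choose_spec hv2
      exact (Finset.card_le_card h3).trans (Finset.card_image_le.trans (hS i))) hn
  refine ⟨I, h1, fun i hi j hj hij => ?_⟩
  have h3 := h2 i hi j hj hij
  by_contra h4
  exact h3 (mem_filter.2 ⟨mem_univ _, h4⟩)

end Vale.Agent.P235.XC.H761
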