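import Vale.Agent.P235.XC.Defs
import Vale.Agent.P235.XC.H761.X6

/-!
# P235, XC, row X6: `IndStmt`
-/

set_option autoImplicit false

namespace Vale.Agent.P235.XC.H761

/-- **[X6]** eight of sixty-four, in the letters of `XC/Defs` -/
theorem indStmt : Vale.Agent.P235.XC.IndStmt := by
  classical
  intro f hf
  obtain ⟨I, h1, h2⟩ := pick (n := 64) (fun i => (f i).toFinset) (fun i => by
    rw [← Set.ncard_eq_toFinset_card']
    exact hf i) (by norm_num)
  refine ⟨fun k => I.orderEmbOfFin h1 k, (I.orderEmbOfFin h1).injective, fun i j hij hm => ?_⟩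
  exact h2 _ (I.orderEmbOfFin_mem h1 i) _ (I.orderEmbOfFin_mem h1 j)
    (fun e => hij ((I.orderEmbOfFin h1).injective e)) (Set.mem_toFinset.2 hm)

end Vale.Agent.P235.XC.H761
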