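import Vale.Agent.P235.XC.Defs

/-!
P235, line XC, row [K5TX]: `K_5` and `K_{3,3}` are minors of `TX 3` (helper761)
-/

set_option autoImplicit false

namespace Vale.Agent.P235.XC.H761

open SimpleGraph Vale.Agent.P235.H134 Vale.Agent.P235.H56

/-- the vertex joined to the first and the last row -/
theorem txP {r : ℕ} {x : Fin r × Fin r} (h : x.1.val = 0 ∨ x.1.val + 1 = r) :
    (TX r).Adj (Sum.inl 0) (Sum.inr x) :=
  (SimpleGraph.fromRel_adj _ _ _).2 ⟨by simp, Or.inl (Or.inl ⟨x, h, rfl, rfl⟩)⟩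

/-- the vertex joined to the first and the last column -/
theorem txQ {r : ℕ} {x : Fin r × Fin r} (h : x.2.val = 0 ∨ x.2.val + 1 = r) :
    (TX r).Adj (Sum.inl 1) (Sum.inr x) :=
  (SimpleGraph.fromRel_adj _ _ _).2 ⟨by simp, Or.inl (Or.inr (Or.inl ⟨x, h, rfl, rfl⟩))⟩

/-- edges of the grid -/
theorem txG {r : ℕ} {x y : Fin r × Fin r} (h : (grid r).Adj x y) :
    (TX r).Adj (Sum.inr x) (Sum.inr y) :=
  (SimpleGraph.fromRel_adj _ _ _).2
    ⟨fun e => h.ne (Sum.inr.inj e), Or.inl (Or.inr (Or.inr ⟨x, y, h, rfl, rfl⟩))⟩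

theorem gR {r : ℕ} {i j j' : Fin r} (h : j.val + 1 = j'.val) : (grid r).Adj (i, j) (i, j') := by
  refine SimpleGraph.boxProd_adj.2 (Or.inr ⟨?_, rfl⟩)
  exact SimpleGraph.pathGraph_adj.2 (Or.inl h)

theorem gC {r : ℕ} {i i' j : Fin r} (h : i.val + 1 = i'.val) : (grid r).Adj (i, j) (i', j) := by
  refine SimpleGraph.boxProd_adj.2 (Or.inl ⟨?_, rfl⟩)
  exact SimpleGraph.pathGraph_adj.2 (Or.inl h)

/-- one vertex -/
theorem con1 {V : Type} (G : SimpleGraph V) (x : V) : (G.induce {x}).Connected := by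
  have : Nonempty ({x} : Set V) := ⟨⟨x, rfl⟩⟩
  have : Subsingleton ({x} : Set V) := ⟨fun a b => Subtype.ext (a.2.trans b.2.symm)⟩
  exact ⟨fun a b => by rw [Subsingleton.elim a b]⟩

/-- one vertex more -/
theorem conI {V : Type} {G : SimpleGraph V} {S : Set V} {x y : V}
    (hS : (G.induce S).Connected) (hy : y ∈ S) (h : G.Adj x y) :
    (G.induce (insert x S)).Connected := by
  have e : insert x S = {x, y} ∪ S := by
    ext z
    simp only [Set.mem_insert_iff, Set.mem_union, Set.mem_singleton_iff]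
    constructor
    · rintro (h | h)
      · exact Or.inl (Or.inl h)
      · exact Or.inr h
    · rintro ((h | h) | h)
      · exact Or.inl h
      · exact Or.inr (h ▸ hy)
      · exact Or.inr h
  rw [e]
  exact SimpleGraph.induce_union_connected
    (SimpleGraph.induce_pair_connected_of_adj h).preconnected hS.preconnected
    ⟨y, Or.inr rfl, hy⟩

/-- the vertices of `TX 3` -/
abbrev V3 : Type := Fin 2 ⊕ (Fin 3 × Fin 3)

/-- the five branch sets of `K_5` -/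
def c5 : V3 → Fin 5
  | Sum.inl i => if i = 0 then 1 else 4
  | Sum.inr x => if x.1 = 0 then (if x.2 = 0 then 1 else 0) else if x.2 = 2 then 3 else 2

/-- the six branch sets of `K_{3,3}` -/
def c6 : V3 → Fin 3 ⊕ Fin 3
  | Sum.inl i => if i = 0 then Sum.inr 1 else Sum.inr 2
  | Sum.inr x => if x.1 = 0 ∨ (x.1 = 1 ∧ x.2 = 1) then Sum.inl 2 else
      if x.2 = 2 then Sum.inl 0 else if x.2 = 1 then Sum.inr 0 else
      if x.1 = 2 then Sum.inl 1 else Sum.inr 2

theorem g3R (i j j' : Fin 3) (h : j.val + 1 = j'.val) :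
    (TX 3).Adj (Sum.inr (i, j)) (Sum.inr (i, j')) := txG (gR h)

theorem g3C (i i' j : Fin 3) (h : i.val + 1 = i'.val) :
    (TX 3).Adj (Sum.inr (i, j)) (Sum.inr (i', j)) := txG (gC h)

theorem g3P (i j : Fin 3) (h : i.val = 0 ∨ i.val + 1 = 3) :
    (TX 3).Adj (Sum.inl 0) (Sum.inr (i, j)) := txP h

theorem g3Q (i j : Fin 3) (h : j.val = 0 ∨ j.val + 1 = 3) :
    (TX 3).Adj (Sum.inl 1) (Sum.inr (i, j)) := txQ h

theorem s50 : {v | c5 v = 0} = ({Sum.inr (0, 1), Sum.inr (0, 2)} : Set V3) := by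
  ext v
  simp only [Set.mem_ofPred_eq, Set.mem_insert_iff, Set.mem_singleton_iff]
  revert v
  decide

theorem s51 : {v | c5 v = 1} = ({Sum.inl 0, Sum.inr (0, 0)} : Set V3) := by
  ext v
  simp only [Set.mem_ofPred_eq, Set.mem_insert_iff, Set.mem_singleton_iff]
  revert v
  decide

theorem s52 : {v | c5 v = 2} =
    ({Sum.inr (1, 0), Sum.inr (1, 1), Sum.inr (2, 0), Sum.inr (2, 1)} : Set V3) := by
  ext v
  simp only [Set.mem_ofPred_eq, Set.mem_insert_iff, Set.mem_singleton_iff]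
  revert v
  decide

theorem s53 : {v | c5 v = 3} = ({Sum.inr (1, 2), Sum.inr (2, 2)} : Set V3) := by
  ext v
  simp only [Set.mem_ofPred_eq, Set.mem_insert_iff, Set.mem_singleton_iff]
  revert v
  decide

theorem s54 : {v | c5 v = 4} = ({Sum.inl 1} : Set V3) := by
  ext v
  simp only [Set.mem_ofPred_eq, Set.mem_singleton_iff]
  revert v
  decide

theorem con5 (a : Fin 5) : ((TX 3).induce {v | c5 v = a}).Connected := by
  fin_cases a
  · show ((TX 3).induce {v | c5 v = 0}).Connected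
    rw [s50]
    exact conI (con1 _ _) rfl (g3R 0 1 2 rfl)
  · show ((TX 3).induce {v | c5 v = 1}).Connected
    rw [s51]
    exact conI (con1 _ _) rfl (g3P 0 0 (Or.inl rfl))
  · show ((TX 3).induce {v | c5 v = 2}).Connected
    rw [s52]
    refine conI (y := Sum.inr (1, 1)) ?_ (by simp) (g3R 1 0 1 rfl)
    refine conI (y := Sum.inr (2, 1)) ?_ (by simp) (g3C 1 2 1 rfl)
    exact conI (con1 _ _) rfl (g3R 2 0 1 rfl)
  · show ((TX 3).induce {v | c5 v = 3}).Connected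
    rw [s53]
    exact conI (con1 _ _) rfl (g3C 1 2 2 rfl)
  · show ((TX 3).induce {v | c5 v = 4}).Connected
    rw [s54]
    exact con1 _ _

/-- `K_5` is a minor of `TX 3` -/
theorem k5_TX3 : IsMinor K5g (TX 3) := by
  have key : ∀ a b : Fin 5, a < b → ∃ x ∈ {v | c5 v = a}, ∃ y ∈ {v | c5 v = b},
      (TX 3).Adj x y := by
    intro a b hab
    fin_cases a <;> fin_cases b <;> first
      | (exfalso; revert hab; decide)
      | skip
    · exact ⟨Sum.inr (0, 1), rfl, Sum.inr (0, 0), rfl, (g3R 0 0 1 rfl).symm⟩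
    · exact ⟨Sum.inr (0, 1), rfl, Sum.inr (1, 1), rfl, g3C 0 1 1 rfl⟩
    · exact ⟨Sum.inr (0, 2), rfl, Sum.inr (1, 2), rfl, g3C 0 1 2 rfl⟩
    · exact ⟨Sum.inr (0, 2), rfl, Sum.inl 1, rfl, (g3Q 0 2 (Or.inr rfl)).symm⟩
    · exact ⟨Sum.inr (0, 0), rfl, Sum.inr (1, 0), rfl, g3C 0 1 0 rfl⟩
    · exact ⟨Sum.inl 0, rfl, Sum.inr (2, 2), rfl, g3P 2 2 (Or.inr rfl)⟩
    · exact ⟨Sum.inr (0, 0), rfl, Sum.inl 1, rfl, (g3Q 0 0 (Or.inl rfl)).symm⟩
    · exact ⟨Sum.inr (1, 1), rfl, Sum.inr (1, 2), rfl, g3R 1 1 2 rfl⟩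
    · exact ⟨Sum.inr (1, 0), rfl, Sum.inl 1, rfl, (g3Q 1 0 (Or.inl rfl)).symm⟩
    · exact ⟨Sum.inr (1, 2), rfl, Sum.inl 1, rfl, (g3Q 1 2 (Or.inr rfl)).symm⟩
  refine ⟨fun a => {v | c5 v = a}, con5, ?_, ?_⟩
  · intro a b hab
    exact Set.disjoint_left.2 fun v ha hb => hab (ha.symm.trans hb)
  · intro a b hab
    rcases lt_or_gt_of_ne hab.ne with h | h
    · exact key a b h
    · obtain ⟨x, hx, y, hy, hxy⟩ := key b a h
      exact ⟨y, hy, x, hx, hxy.symm⟩

theorem s6a0 : {v | c6 v = Sum.inl 0} = ({Sum.inr (1, 2), Sum.inr (2, 2)} : Set V3) := by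
  ext v
  simp only [Set.mem_ofPred_eq, Set.mem_insert_iff, Set.mem_singleton_iff]
  revert v
  decide

theorem s6a1 : {v | c6 v = Sum.inl 1} = ({Sum.inr (2, 0)} : Set V3) := by
  ext v
  simp only [Set.mem_ofPred_eq, Set.mem_singleton_iff]
  revert v
  decide

theorem s6a2 : {v | c6 v = Sum.inl 2} =
    ({Sum.inr (0, 0), Sum.inr (0, 2), Sum.inr (0, 1), Sum.inr (1, 1)} : Set V3) := by
  ext v
  simp only [Set.mem_ofPred_eq, Set.mem_insert_iff, Set.mem_singleton_iff]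
  revert v
  decide

theorem s6b0 : {v | c6 v = Sum.inr 0} = ({Sum.inr (2, 1)} : Set V3) := by
  ext v
  simp only [Set.mem_ofPred_eq, Set.mem_singleton_iff]
  revert v
  decide

theorem s6b1 : {v | c6 v = Sum.inr 1} = ({Sum.inl 0} : Set V3) := by
  ext v
  simp only [Set.mem_ofPred_eq, Set.mem_singleton_iff]
  revert v
  decide

theorem s6b2 : {v | c6 v = Sum.inr 2} = ({Sum.inl 1, Sum.inr (1, 0)} : Set V3) := by
  ext v
  simp only [Set.mem_ofPred_eq, Set.mem_insert_iff, Set.mem_singleton_iff]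
  revert v
  decide

theorem con6 (a : Fin 3 ⊕ Fin 3) : ((TX 3).induce {v | c6 v = a}).Connected := by
  rcases a with a | a
  · fin_cases a
    · show ((TX 3).induce {v | c6 v = Sum.inl 0}).Connected
      rw [s6a0]
      exact conI (con1 _ _) rfl (g3C 1 2 2 rfl)
    · show ((TX 3).induce {v | c6 v = Sum.inl 1}).Connected
      rw [s6a1]
      exact con1 _ _
    · show ((TX 3).induce {v | c6 v = Sum.inl 2}).Connected
      rw [s6a2]
      refine conI (y := Sum.inr (0, 1)) ?_ (by simp) (g3R 0 0 1 rfl)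
      refine conI (y := Sum.inr (0, 1)) ?_ (by simp) (g3R 0 1 2 rfl).symm
      exact conI (con1 _ _) rfl (g3C 0 1 1 rfl)
  · fin_cases a
    · show ((TX 3).induce {v | c6 v = Sum.inr 0}).Connected
      rw [s6b0]
      exact con1 _ _
    · show ((TX 3).induce {v | c6 v = Sum.inr 1}).Connected
      rw [s6b1]
      exact con1 _ _
    · show ((TX 3).induce {v | c6 v = Sum.inr 2}).Connected
      rw [s6b2]
      exact conI (con1 _ _) rfl (g3Q 1 0 (Or.inl rfl))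

/-- `K_{3,3}` is a minor of `TX 3` -/
theorem k33_TX3 : IsMinor K33 (TX 3) := by
  have key : ∀ a b : Fin 3, ∃ x ∈ {v | c6 v = Sum.inl a}, ∃ y ∈ {v | c6 v = Sum.inr b},
      (TX 3).Adj x y := by
    intro a b
    fin_cases a <;> fin_cases b
    · exact ⟨Sum.inr (2, 2), rfl, Sum.inr (2, 1), rfl, (g3R 2 1 2 rfl).symm⟩
    · exact ⟨Sum.inr (2, 2), rfl, Sum.inl 0, rfl, (g3P 2 2 (Or.inr rfl)).symm⟩
    · exact ⟨Sum.inr (1, 2), rfl, Sum.inl 1, rfl, (g3Q 1 2 (Or.inr rfl)).symm⟩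
    · exact ⟨Sum.inr (2, 0), rfl, Sum.inr (2, 1), rfl, g3R 2 0 1 rfl⟩
    · exact ⟨Sum.inr (2, 0), rfl, Sum.inl 0, rfl, (g3P 2 0 (Or.inr rfl)).symm⟩
    · exact ⟨Sum.inr (2, 0), rfl, Sum.inr (1, 0), rfl, (g3C 1 2 0 rfl).symm⟩
    · exact ⟨Sum.inr (1, 1), rfl, Sum.inr (2, 1), rfl, g3C 1 2 1 rfl⟩
    · exact ⟨Sum.inr (0, 0), rfl, Sum.inl 0, rfl, (g3P 0 0 (Or.inl rfl)).symm⟩
    · exact ⟨Sum.inr (1, 1), rfl, Sum.inr (1, 0), rfl, (g3R 1 0 1 rfl).symm⟩
  refine ⟨fun a => {v | c6 v = a}, con6, ?_, ?_⟩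
  · intro a b hab
    exact Set.disjoint_left.2 fun v ha hb => hab (ha.symm.trans hb)
  · intro a b hab
    rcases a with a | a <;> rcases b with b | b
    · simp [completeBipartiteGraph] at hab
    · exact key a b
    · obtain ⟨x, hx, y, hy, hxy⟩ := key b a
      exact ⟨y, hy, x, hx, hxy.symm⟩
    · simp [completeBipartiteGraph] at hab

/-- [K5TX] -/
theorem k5TX : ∃ r : ℕ, IsMinor K5g (TX r) ∧ IsMinor K33 (TX r) := ⟨3, k5_TX3, k33_TX3⟩

end Vale.Agent.P235.XC.H761
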